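import Vale.Agent.P284.H378.CS

/-!
# P284 (helper478), target G (T3 with representations of the group): interface statements

`FinRepIn Γ K`: every finite dimensional real representation of the group `Γ` has finite range on the
subgroup `K`.  `KPkg`: what is used of the normalised data.  `NulGStmt` (G1): no vectors in all images of
`Θ`, over an open set.  `DKGStmt` (G2): elements of the kernel of the periods which are near the identity
on the sheets near all good points act trivially on `Θ`.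
-/

open scoped Manifold ContDiff Topology InnerProductSpace ComplexConjugate
open Filter Set Metric

noncomputable section

namespace Vale.Agent.P284.H478.G

open Vale.Agent.P272.K Vale.Agent.P284.H894 Vale.Agent.P284.H894.G Vale.Agent.P284.H894.V
  Vale.Agent.P284.H894.W Vale.Agent.P284.H573 Vale.Agent.P284.H213.Grp Vale.Agent.P284.H395
  Vale.Agent.P284.H619 Vale.Agent.P284.H625 Vale.Agent.P284.H378

/-- Every finite dimensional real representation of `Γ` has finite range on the subgroup `K`. -/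
def FinRepIn (Γ : Type) [Group Γ] (K : Subgroup Γ) : Prop :=
  ∀ (V : Type) [AddCommGroup V] [Module ℝ V] [FiniteDimensional ℝ V] (ρ : Γ →* (V →ₗ[ℝ] V)),
    (ρ '' (K : Set Γ)).Finite

/-- The part of the normalised data `NPkg` used in the modules G1 and G2. -/
structure KPkg (Γ : Type) [Group Γ] (q : ℕ) (c : Γ → Cm q) (K : Subgroup Γ) : Prop where
  lat : LatChar Γ q c
  normal : K.Normal
  fg : Group.FG K
  inf : Infinite K
  sub : ∀ g ∈ K, c g = 0
  /-- `K` has finite index in `ker c` -/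
  fi : ∃ F : Set Γ, F.Finite ∧ ∀ g, c g = 0 → ∃ f ∈ F, f⁻¹ * g ∈ K
  nvi : ¬ VirtIndicable K

theorem KPkg.of {Γ : Type} [Group Γ] {q : ℕ} {c : Γ → Cm q} {K : Subgroup Γ}
    (h : NPkg Γ q c K) : KPkg Γ q c K :=
  ⟨h.lat, h.normal, h.fg, h.inf, h.sub, h.fi, h.nvi⟩

section
variable {n q r k s : ℕ} {X E Γ W H : Type} [TopologicalSpace X] [ChartedSpace (Cm n) X]
  [TopologicalSpace E] [Group Γ] [MulAction Γ E]
  [NormedAddCommGroup W] [InnerProductSpace ℂ W] [NormedAddCommGroup H] [InnerProductSpace ℂ H]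

/-- The elements `g j` are near the identity on the sheets, near all good points. -/
def NearId (p : E → X) (F : E → Cm q) (m : ℕ) (v : E → Chart n X → (Fin (q + r) → Cm n) → H)
    (U : Γ → (H →ₗᵢ[ℂ] H)) (π : Γ →* (W ≃ₗᵢ[ℂ] W)) (Θ : E → Chart n X → (Cm n →L[ℂ] W))
    (c : Γ → Cm q) (N : Cm k →L[ℂ] Cm q) (s : ℕ) (𝒢 : Set E) (g : ℕ → Γ) : Prop :=
  ∀ z ∈ 𝒢, ∀ (e : Chart n X) (b : Cm n → Cm (q + r)) (F0 : Cm (q + r) → W)
    (β : Cm (q + r) → Cm s) (γ : Cm s → H) (τ : Cm s → Cm q),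
    LC p F m v U π Θ N z e b F0 β γ τ →
    ∃ ρ > 0, ∀ ε > 0, ∀ᶠ j in atTop, ∃ φ : Cm s → Cm s,
      NI U c N γ τ (β (b (e (p z)))) ρ (g j) φ ∧
      ∀ x ∈ ball (β (b (e (p z)))) ρ, ‖φ x - x‖ < ε

end

/-- **G1** (NUL for `Γ`): alternative (B) of the natural forms is impossible. -/
def NulGStmt : Prop :=
  ∀ (n q : ℕ) (X : Type) [TopologicalSpace X] [T2Space X] [CompactSpace X]
    [ConnectedSpace X] [ChartedSpace (Cm n) X] [IsManifold 𝓘(ℂ, Cm n) ω X]
    (w : Chart n X → Cm n → Matrix (Fin n) (Fin n) ℂ), IsKahler w → ∀ (E Γ : Type)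
    [TopologicalSpace E] [ConnectedSpace E] [Group Γ] [MulAction Γ E] (p : E → X), IsGalois Γ p →
    ∀ (F : E → Cm q) (c : Γ → Cm q) (K : Subgroup Γ), (∃ B, HolB p w F B) →
      (∀ g y, F (g • y) = F y + c g) → KPkg Γ q c K → FinRepIn Γ K → GenConn (n := n) p F →
      (∃ y, Reg (n := n) p F y) →
    ∀ (W : Type) [NormedAddCommGroup W] [InnerProductSpace ℂ W] [CompleteSpace W]
      (π : Γ →* (W ≃ₗᵢ[ℂ] W)) (Θ : E → Chart n X → (Cm n →L[ℂ] W)) (M₀ : Set (Cm q)),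
      IsMeagre M₀ → ThE p F K π Θ M₀ →
    ∀ O : Set E, IsOpen O → O.Nonempty →
      (∀ y₀ ∈ O, ∃ a : W, a ≠ 0 ∧ ∀ᶠ y in 𝓝 y₀, F y = F y₀ →
        ∃ e, At e (p y) ∧ ∃ ξ ∈ VS p F y e, Θ y e ξ = a) → False

/-- **G2** (`D_K` for `Γ`). -/
def DKGStmt : Prop :=
  ∀ (n q r k s m : ℕ) (X : Type) [TopologicalSpace X] [T2Space X] [CompactSpace X]
    [ConnectedSpace X] [ChartedSpace (Cm n) X] [IsManifold 𝓘(ℂ, Cm n) ω X]
    (w : Chart n X → Cm n → Matrix (Fin n) (Fin n) ℂ), IsKahler w → ∀ (E Γ : Type)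
    [TopologicalSpace E] [ConnectedSpace E] [Group Γ] [MulAction Γ E] (p : E → X), IsGalois Γ p →
    ∀ (F : E → Cm q) (c : Γ → Cm q) (K : Subgroup Γ), (∃ B, HolB p w F B) →
      (∀ g y, F (g • y) = F y + c g) → KPkg Γ q c K → FinRepIn Γ K → GenConn (n := n) p F →
      (∃ y, Reg (n := n) p F y) →
    ∀ (W H : Type) [NormedAddCommGroup W] [InnerProductSpace ℂ W] [CompleteSpace W]
      [NormedAddCommGroup H] [InnerProductSpace ℂ H] [CompleteSpace H]
      (π : Γ →* (W ≃ₗᵢ[ℂ] W)) (Θ : E → Chart n X → (Cm n →L[ℂ] W)) (M₀ : Set (Cm q)),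
      IsMeagre M₀ → ThE p F K π Θ M₀ →
    ∀ (v : E → Chart n X → (Fin (q + r) → Cm n) → H) (U : Γ → (H →ₗᵢ[ℂ] H))
      (N : Cm k →L[ℂ] Cm q) (𝒢 : Set E), LeafE s p F m v U π Θ N 𝒢 →
    ∀ g : ℕ → Γ, (∀ j, c (g j) = 0) → NearId p F m v U π Θ c N s 𝒢 g →
    ∃ M : Set (Cm q), IsMeagre M ∧ ∀ t ∉ M, (∃ y, F y = t) →
      ∀ᶠ j in atTop, ∀ y e, F y = t → At e (p y) → ∀ ξ ∈ VS p F y e, π (g j) (Θ y e ξ) = Θ y e ξ

end Vale.Agent.P284.H478.G
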