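import Vale.Agent.P284.H478.G.S
import Vale.Agent.P284.H378.Slide

/-!
# P284 (helper478), target G, module G2e: products of near identity elements
-/

open scoped Manifold ContDiff Topology InnerProductSpace ComplexConjugate
open Filter Set Metric

noncomputable section

namespace Vale.Agent.P284.H478.G

open Vale.Agent.P272.K Vale.Agent.P284.H894 Vale.Agent.P284.H894.G Vale.Agent.P284.H894.V
  Vale.Agent.P284.H894.W Vale.Agent.P284.H573 Vale.Agent.P284.H213.Grp Vale.Agent.P284.H395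
  Vale.Agent.P284.H619 Vale.Agent.P284.H625 Vale.Agent.P284.H378 Vale.Agent.P299.H720

/-- differentiable inverse of a near identity map -/
theorem exists_inv {s : ℕ} {θ : Cm s → Cm s} {a : Cm s} {ρ δ : ℝ} (hρ : 0 < ρ)
    (hd : DifferentiableOn ℂ θ (ball a ρ)) (hδ : ∀ x ∈ ball a ρ, ‖θ x - x‖ ≤ δ) (hs : δ ≤ ρ / 32) :
    ∃ G : Cm s → Cm s, DifferentiableOn ℂ G (ball a (ρ / 8)) ∧
      ∀ y ∈ ball a (ρ / 8), G y ∈ ball a (ρ / 4) ∧ θ (G y) = y ∧ ‖G y - y‖ ≤ δ := by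
  have hδ0 : 0 ≤ δ := (norm_nonneg _).trans (hδ a (mem_ball_self hρ))
  have hex : ∀ y : Cm s, ∃ x : Cm s, y ∈ ball a (ρ / 8) → x ∈ ball a (ρ / 4) ∧ θ x = y ∧
      ‖x - y‖ ≤ δ := by
    intro y
    by_cases hy : y ∈ ball a (ρ / 8)
    · obtain ⟨x, h1, h2, h3⟩ := onto_near hρ hd hδ hs hy
      exact ⟨x, fun _ => ⟨h1, h2, h3⟩⟩
    · exact ⟨0, fun h => absurd h hy⟩
  choose G hG using hex
  refine ⟨G, ?_, fun y hy => hG y hy⟩
  -- lower Lipschitz bound
  set f : Cm s → Cm s := fun x => θ x - x with hf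
  have hfd : DifferentiableOn ℂ f (ball a ρ) := hd.sub differentiableOn_id
  have hlip : ∀ x ∈ ball a (ρ / 4), ∀ z ∈ ball a (ρ / 4), ‖f x - f z‖ ≤ 1 / 8 * ‖x - z‖ := by
    intro x hx z hz
    have h1 := lip_of_bdd hρ hfd (C := δ) hδ hz hx
    rw [dist_eq_norm, dist_eq_norm] at h1
    refine h1.trans ?_
    have : 4 * δ / ρ ≤ 1 / 8 := by
      rw [div_le_iff₀ hρ]; linarith
    exact mul_le_mul_of_nonneg_right this (norm_nonneg _)
  have hlow : ∀ x ∈ ball a (ρ / 4), ∀ z ∈ ball a (ρ / 4), ‖x - z‖ ≤ 2 * ‖θ x - θ z‖ := by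
    intro x hx z hz
    have h1 := hlip x hx z hz
    have h2 : x - z = (θ x - θ z) - (f x - f z) := by simp only [hf]; abel
    have h3 : ‖x - z‖ ≤ ‖θ x - θ z‖ + ‖f x - f z‖ := by
      conv_lhs => rw [h2]
      exact norm_sub_le _ _
    linarith [norm_nonneg (x - z)]
  intro y hy
  refine DifferentiableAt.differentiableWithinAt ?_
  obtain ⟨hGy, hθy, -⟩ := hG y hy
  have hsub : ball a (ρ / 4) ⊆ ball a ρ := ball_subset_ball (by linarith)
  have hθd : DifferentiableAt ℂ θ (G y) :=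
    (hd _ (hsub hGy)).differentiableAt (isOpen_ball.mem_nhds (hsub hGy))
  -- the derivative is injective
  have hinj : Function.Injective (fderiv ℂ θ (G y)) := by
    rw [injective_iff_map_eq_zero]
    intro v hv
    have h1 : ‖fderiv ℂ f (G y)‖ ≤ 1 / 8 := by
      refine norm_fderiv_le_of_lip' ℂ (by norm_num) ?_
      filter_upwards [isOpen_ball.mem_nhds hGy] with x hx
      exact hlip x hx _ hGy
    have h2 : fderiv ℂ f (G y) = fderiv ℂ θ (G y) - ContinuousLinearMap.id ℂ (Cm s) := by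
      have h3 : HasFDerivAt f (fderiv ℂ θ (G y) - ContinuousLinearMap.id ℂ (Cm s)) (G y) :=
        hθd.hasFDerivAt.sub (hasFDerivAt_id _)
      exact h3.fderiv
    have h3 : fderiv ℂ f (G y) v = -v := by
      rw [h2, sub_apply, hv]
      simp
    have h4 := (fderiv ℂ f (G y)).le_opNorm v
    rw [h3, norm_neg] at h4
    have h5 : ‖v‖ ≤ 1 / 8 * ‖v‖ := h4.trans (mul_le_mul_of_nonneg_right h1 (norm_nonneg _))
    have h6 : ‖v‖ = 0 := by linarith [norm_nonneg v]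
    exact norm_eq_zero.1 h6
  set L : Cm s ≃L[ℂ] Cm s :=
    (LinearEquiv.ofInjectiveEndo (fderiv ℂ θ (G y) : Cm s →ₗ[ℂ] Cm s) hinj).toContinuousLinearEquiv
    with hL
  have hLe : (L : Cm s →L[ℂ] Cm s) = fderiv ℂ θ (G y) := by
    ext v : 1
    rfl
  have hcont : ContinuousAt G y := by
    rw [Metric.continuousAt_iff]
    intro ε hε
    obtain ⟨r, hr, hball⟩ := Metric.isOpen_iff.1 isOpen_ball y hy
    refine ⟨min r (ε / 2), by positivity, fun {z} hz => ?_⟩
    have hzb : z ∈ ball a (ρ / 8) := hball (mem_ball.2 (hz.trans_le (min_le_left _ _)))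
    obtain ⟨hGz, hθz, -⟩ := hG z hzb
    have h1 := hlow _ hGz _ hGy
    rw [hθz, hθy] at h1
    rw [dist_eq_norm] at hz ⊢
    have h2 := hz.trans_le (min_le_right _ _)
    linarith
  have h1 : HasFDerivAt G (L.symm : Cm s →L[ℂ] Cm s) y := by
    refine HasFDerivAt.of_local_left_inverse (f := θ) hcont (by rw [hLe]; exact hθd.hasFDerivAt) ?_
    filter_upwards [isOpen_ball.mem_nhds hy] with z hz
    exact (hG z hz).2.1
  exact h1.differentiableAt

section
variable {n q r k s m : ℕ} {X E Γ W H : Type} [TopologicalSpace X] [ChartedSpace (Cm n) X]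
  [TopologicalSpace E] [Group Γ] [MulAction Γ E]
  [NormedAddCommGroup W] [InnerProductSpace ℂ W] [NormedAddCommGroup H] [InnerProductSpace ℂ H]
  {p : E → X} {F : E → Cm q} {v : E → Chart n X → (Fin (q + r) → Cm n) → H}
  {U : Γ → (H →ₗᵢ[ℂ] H)} {π : Γ →* (W ≃ₗᵢ[ℂ] W)} {Θ : E → Chart n X → (Cm n →L[ℂ] W)}
  {c : Γ → Cm q} {N : Cm k →L[ℂ] Cm q} {𝒢 : Set E}

/-- near a good point all `γ x` are multiples of values of `v` -/
theorem val_near (hp : IsCoveringMap p) {z : E} {e : Chart n X} {b : Cm n → Cm (q + r)}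
    {F0 : Cm (q + r) → W} {β : Cm (q + r) → Cm s} {γ : Cm s → H} {τ : Cm s → Cm q}
    (hL : LC p F m v U π Θ N z e b F0 β γ τ) :
    ∀ᶠ x in 𝓝 (β (b (e (p z)))), ∃ y ξ, At e (p y) ∧ ∃ d : ℂ, d ≠ 0 ∧ v y e ξ = d • γ x := by
  have hξ : ∀ j : Fin (q + r), ∃ x, fderiv ℂ b (e (p z)) x = Pi.single j 1 :=
    fun j => hL.bsurj _
  choose ξ₀ hξ₀ using hξ
  set J : Cm n → ℂ := fun x => (Matrix.of fun i j => fderiv ℂ b x (ξ₀ j) i).det with hJ
  have hJ1 : J (e (p z)) = 1 := by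
    have : (Matrix.of fun i j => fderiv ℂ b (e (p z)) (ξ₀ j) i) =
        (1 : Matrix (Fin (q + r)) (Fin (q + r)) ℂ) := by
      ext i j
      rw [Matrix.of_apply, hξ₀, Matrix.one_apply, Pi.single_apply]
    simp only [hJ]
    rw [this, Matrix.det_one]
  have hJc : ContinuousAt J (e (p z)) := by
    have h1 : ContinuousAt (fun x => Matrix.of fun i j => fderiv ℂ b x (ξ₀ j) i) (e (p z)) := by
      refine continuousAt_pi.2 fun i => continuousAt_pi.2 fun j => ?_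
      have h2 : ContinuousAt (fun x => fderiv ℂ b x (ξ₀ j)) (e (p z)) :=
        hL.ban.fderiv.continuousAt.clm_apply continuousAt_const
      exact (continuousAt_apply i _).comp h2
    exact (Continuous.matrix_det continuous_id).continuousAt.comp h1
  have hJne : ∀ᶠ x in 𝓝 (e (p z)), J x ≠ 0 := hJc.eventually_ne (by rw [hJ1]; exact one_ne_zero)
  have hb : map b (𝓝 (e (p z))) = 𝓝 (b (e (p z))) :=
    hL.ban.hasStrictFDerivAt.map_nhds_eq_of_surj (LinearMap.range_eq_top.2 hL.bsurj)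
  have hβ : map β (𝓝 (b (e (p z)))) = 𝓝 (β (b (e (p z)))) :=
    hL.βan.hasStrictFDerivAt.map_nhds_eq_of_surj (LinearMap.range_eq_top.2 hL.βsurj)
  rw [← hβ, ← hb, eventually_map, eventually_map, ← ev_iff hp hL.mem]
  filter_upwards [hL.v_eq, at_ev hp hL.mem, (ev_iff hp hL.mem).2 hJne] with y h1 h2 h3
  exact ⟨y, ξ₀, h2, _, pow_ne_zero m h3, h1 ξ₀⟩

/-- products of near identity elements -/
theorem NearId.inv_mul (hp : IsCoveringMap p)
    (hequi : ∀ (g : Γ) y e, At e (p y) → ∀ ξ, v (g • y) e ξ = U g (v y e ξ))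
    (hpg : ∀ (g : Γ) y, p (g • y) = p y) (hadd : ∀ g h, c (g * h) = c g + c h)
    {h h' : ℕ → Γ} (H1 : NearId p F m v U π Θ c N s 𝒢 h)
    (H2 : NearId p F m v U π Θ c N s 𝒢 h') (hc : ∀ j, c (h' j) = c (h j)) :
    NearId p F m v U π Θ c N s 𝒢 (fun j => (h j)⁻¹ * h' j) := by
  intro z hz e b F0 β γ τ hL
  obtain ⟨ρ₁, hρ₁, h1⟩ := H1 z hz e b F0 β γ τ hL
  obtain ⟨ρ₂, hρ₂, h2⟩ := H2 z hz e b F0 β γ τ hL
  have hval := val_near hp hL
  have hγne : ∀ᶠ x in 𝓝 (β (b (e (p z)))), γ x ≠ 0 :=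
    hL.γan.continuousAt.eventually_ne hL.imm.1
  obtain ⟨ρ₃, hρ₃, h3⟩ := Metric.eventually_nhds_iff_ball.1 (hval.and hγne)
  set b₀ := β (b (e (p z))) with hb₀
  have hone : c 1 = 0 := by
    have := hadd 1 1
    rw [mul_one] at this
    exact left_eq_add.1 this
  have hcinv : ∀ g, c g⁻¹ = - c g := by
    intro g
    have := hadd g g⁻¹
    rw [mul_inv_cancel, hone] at this
    exact (neg_eq_of_add_eq_zero_right this.symm).symm
  set ρ := min (min ρ₁ ρ₂) ρ₃ with hρdef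
  have hρ : 0 < ρ := lt_min (lt_min hρ₁ hρ₂) hρ₃
  have s1 : ball b₀ ρ ⊆ ball b₀ ρ₁ :=
    ball_subset_ball ((min_le_left _ _).trans (min_le_left _ _))
  have s2 : ball b₀ ρ ⊆ ball b₀ ρ₂ :=
    ball_subset_ball ((min_le_left _ _).trans (min_le_right _ _))
  have s3 : ball b₀ ρ ⊆ ball b₀ ρ₃ := ball_subset_ball (min_le_right _ _)
  refine ⟨ρ / 16, by positivity, fun ε hε => ?_⟩
  set η := min (ε / 4) (ρ / 32) with hη
  have hη0 : 0 < η := by positivity
  filter_upwards [h1 η hη0, h2 η hη0] with j hj1 hj2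
  obtain ⟨φ, hφ, hφd⟩ := hj1
  obtain ⟨φ', hφ', hφd'⟩ := hj2
  obtain ⟨G, hGd, hG⟩ := exists_inv hρ (hφ.1.mono s1) (fun x hx => (hφd x (s1 hx)).le)
    (min_le_right _ _)
  have hmap : ∀ x ∈ ball b₀ (ρ / 16), φ' x ∈ ball b₀ (ρ / 8) := by
    intro x hx
    have hx1 : x ∈ ball b₀ ρ := ball_subset_ball (by linarith) hx
    have e1 := hφd' x (s2 hx1)
    have e2 : η ≤ ρ / 32 := min_le_right _ _
    rw [mem_ball, dist_eq_norm] at *
    calc ‖φ' x - b₀‖ = ‖(φ' x - x) + (x - b₀)‖ := by rw [sub_add_sub_cancel]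
      _ ≤ ‖φ' x - x‖ + ‖x - b₀‖ := norm_add_le _ _
      _ < ρ / 8 := by linarith
  refine ⟨fun x => G (φ' x), ⟨?_, fun x hx => ?_⟩, fun x hx => ?_⟩
  · refine hGd.comp (hφ'.1.mono ?_) hmap
    exact (ball_subset_ball (by linarith)).trans s2
  · have hx1 : x ∈ ball b₀ ρ := ball_subset_ball (by linarith) hx
    obtain ⟨g1, g2, g3⟩ := hG _ (hmap x hx)
    have hG1 : G (φ' x) ∈ ball b₀ ρ := ball_subset_ball (by linarith) g1
    obtain ⟨⟨a, ha⟩, hτ⟩ := hφ.2 _ (s1 hG1)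
    obtain ⟨⟨a', ha'⟩, hτ'⟩ := hφ'.2 _ (s2 hx1)
    rw [g2] at ha hτ
    constructor
    · -- the values
      have hane : a ≠ 0 := by
        rintro rfl
        rw [zero_smul] at ha
        have h4 : γ (G (φ' x)) = 0 := by
          have := congrArg norm ha
          rw [LinearIsometry.norm_map, norm_zero] at this
          exact norm_eq_zero.1 this
        exact (h3 _ (s3 hG1)).2 h4
      obtain ⟨y, ξ, hy, d, hd, hv⟩ := (h3 _ (s3 hx1)).1
      have hU : U (h j) (U ((h j)⁻¹ * h' j) (γ x)) = U (h' j) (γ x) := by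
        have e1 := hequi ((h j)⁻¹ * h' j) y e hy ξ
        have e2 := hequi (h j) (((h j)⁻¹ * h' j) • y) e (by rw [hpg]; exact hy) ξ
        have e3 := hequi (h' j) y e hy ξ
        rw [← mul_smul, mul_inv_cancel_left, e3, e1, hv, map_smul, map_smul, map_smul] at e2
        exact (smul_right_injective H hd e2).symm
      refine ⟨a⁻¹ * a', ?_⟩
      apply (U (h j)).injective
      rw [hU, map_smul, ha, ha', smul_smul]
      congr 1
      field_simp
    · have h5 := Submodule.sub_mem _ hτ' hτ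
      have h6 : c ((h j)⁻¹ * h' j) = 0 := by
        rw [hadd, hcinv, hc, neg_add_cancel]
      have h7 : τ (φ' x) - τ x - c (h' j) - (τ (φ' x) - τ (G (φ' x)) - c (h j)) =
          τ (G (φ' x)) - τ x - c ((h j)⁻¹ * h' j) := by
        rw [h6, hc]; abel
      rwa [h7] at h5
  · have hx1 : x ∈ ball b₀ ρ := ball_subset_ball (by linarith) hx
    obtain ⟨g1, g2, g3⟩ := hG _ (hmap x hx)
    have e1 := hφd' x (s2 hx1)
    have e2 : η ≤ ε / 4 := min_le_left _ _
    calc ‖G (φ' x) - x‖ = ‖(G (φ' x) - φ' x) + (φ' x - x)‖ := by rw [sub_add_sub_cancel]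
      _ ≤ ‖G (φ' x) - φ' x‖ + ‖φ' x - x‖ := norm_add_le _ _
      _ < ε := by linarith

end

end Vale.Agent.P284.H478.G
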