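import Vale.Agent.P284.H478.G.Comp
import Vale.Agent.P284.H988.N.Ker
import Vale.Agent.P284.H988.N.LF
import Vale.Agent.P284.H213.G.Asm
import Vale.Agent.P284.H213.K.Core

/-!
# P284 (helper478), target G, module G3: the core, with representations of the group `Γ`
-/

open scoped Manifold ContDiff Topology
open Filter Set Metric

noncomputable section

set_option linter.unusedSectionVars false

namespace Vale.Agent.P284.H478.G

open Vale.Agent.P272.K Vale.Agent.P284.H894 Vale.Agent.P284.H894.G Vale.Agent.P284.H894.V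
  Vale.Agent.P284.H894.W Vale.Agent.P284.H573 Vale.Agent.P284.H213.Grp Vale.Agent.P284.H213.Q
  Vale.Agent.P284.H619 Vale.Agent.P284.H378 Vale.Agent.P284.H998 Vale.Agent.P284.H501.Core
  Vale.Agent.P284.H119.Kaz Vale.Agent.P284.H837 Vale.Agent.P284.H501.T Vale.Agent.P284.H988.N
  Vale.Agent.P284.H213.K Vale.Agent.P284.H395 Vale.Agent.P284.H625

/-- `D_K` for `Γ` gives the rigidity hypothesis of the chain of helper988. -/
theorem dkp_of_dkg (hD : DKGStmt) (n q r k s m : ℕ) (X : Type) [TopologicalSpace X] [T2Space X]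
    [CompactSpace X] [ConnectedSpace X] [ChartedSpace (Cm n) X] [IsManifold 𝓘(ℂ, Cm n) ω X]
    (w : Chart n X → Cm n → Matrix (Fin n) (Fin n) ℂ) (hw : IsKahler w) (E Γ : Type)
    [TopologicalSpace E] [ConnectedSpace E] [Group Γ] [MulAction Γ E] (p : E → X)
    (hp : IsGalois Γ p) (F : E → Cm q) (c : Γ → Cm q) (K : Subgroup Γ)
    (hF : ∃ B, HolB p w F B) (hFe : ∀ g y, F (g • y) = F y + c g) (hK : KPkg Γ q c K)
    (hfr : FinRepIn Γ K) (hG : GenConn (n := n) p F) (hreg : ∃ y, Reg (n := n) p F y)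
    (W H : Type) [NormedAddCommGroup W] [InnerProductSpace ℂ W] [CompleteSpace W]
    [NormedAddCommGroup H] [InnerProductSpace ℂ H] [CompleteSpace H]
    (π : Γ →* (W ≃ₗᵢ[ℂ] W)) (Θ : E → Chart n X → (Cm n →L[ℂ] W)) (M₀ : Set (Cm q))
    (hM₀ : IsMeagre M₀) (hTh : ThE p F K π Θ M₀)
    (v : E → Chart n X → (Fin (q + r) → Cm n) → H) (U : Γ → (H →ₗᵢ[ℂ] H))
    (N : Cm k →L[ℂ] Cm q) (𝒢 : Set E) (hL : LeafE s p F m v U π Θ N 𝒢) :
    DKP p F c K m v U π Θ N s 𝒢 := by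
  intro h h' hc hKh H1 H2
  have hpg : ∀ (g : Γ) y, p (g • y) = p y := fun g y => ((hp.orb y (g • y)).2 ⟨g, rfl⟩).symm
  have hN := NearId.inv_mul hp.cov (fun g y e he ξ => hL.equi g y e he ξ) hpg hK.lat.add H1 H2 hc
  obtain ⟨M, hM, hMt⟩ := hD n q r k s m X w hw E Γ p hp F c K hF hFe hK hfr hG hreg W H π Θ M₀
    hM₀ hTh v U N 𝒢 hL _ (fun j => hK.sub _ (hKh j)) hN
  refine ⟨M, hM, fun t ht => ?_⟩
  by_cases hne : ∃ y, F y = t
  · exact hMt t ht hne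
  · refine Eventually.of_forall fun j y e hy => ?_
    exact absurd ⟨y, hy⟩ hne

/-- **CORE**, uniform in `q`, `K` without property (T), finite images of the representations of `Γ`: only
the case of full rank remains -/
theorem leafOutG (hNul : NulGStmt) (hDK : DKGStmt) {q : ℕ} (hLim : LimNT q) (hNS : NS2Stmt)
    (n : ℕ) (X : Type) [TopologicalSpace X] [T2Space X] [CompactSpace X] [ConnectedSpace X]
    [ChartedSpace (Cm n) X] [IsManifold 𝓘(ℂ, Cm n) ω X]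
    (w : Chart n X → Cm n → Matrix (Fin n) (Fin n) ℂ) (hw : IsKahler w)
    (E Γ : Type) [TopologicalSpace E] [ConnectedSpace E] [Group Γ] [MulAction Γ E]
    (p : E → X) (hG : IsGalois Γ p) (F : E → Cm q)
    (c : Γ → Cm q) (K : Subgroup Γ) (hF : ∃ B, HolB p w F B)
    (hc : ∀ g y, F (g • y) = F y + c g) (hR : ∃ y, Reg (n := n) p F y)
    (hGC : GenConn (n := n) p F) (hN : NPkg Γ q c K) (hfr : FinRepIn Γ K) (hKz : ¬ Kazhdan K) :
    LeafOut n q X E Γ p F K := by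
  obtain ⟨B, hFB⟩ := hF
  obtain ⟨W, iW1, iW2, iW3, π, S, Θ, M₀, hS, hπ, hM₀, hpot⟩ :=
    hLim n X w hw E Γ p hG F c K ⟨B, hFB⟩ hc hR hGC hN hKz
  have hThE := thE_of hG hFB hc hS hpot
  have hThn := th_ne hG.cov hFB hR hS
  have hKp := KPkg.of hN
  rcases hNS n X w hw E Γ p hG q F c ⟨B, hFB⟩ hc hR W π S Θ hS with hB | hL
  · exfalso
    obtain ⟨O, hO, hOne, hOa⟩ := hB
    exact hNul n q X w hw E Γ p hG F c K ⟨B, hFB⟩ hc hKp hfr hGC hR W π Θ M₀ hM₀ hThE O hO hOne hOa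
  · obtain ⟨r, s, k, m, H, i1, i2, i3, v, U, N, 𝒢, hne, hL⟩ := hL
    rcases Nat.eq_zero_or_pos k with hk | hk
    · subst hk
      have hs : q + (r + 1) = s := by simpa using hL.dim
      subst hs
      exact ⟨W, iW1, iW2, iW3, π, Θ, M₀, r, m, H, i1, i2, i3, v, U, N, 𝒢, hM₀, hThE, hThn, hπ,
        hne, hL⟩
    · exfalso
      refine c0 n q (r + 1) k s m X w hw E Γ p hG F c K ⟨B, hFB⟩ hc (to0 hN) W H π Θ hπ v U N 𝒢
        { toLeafE := hL, k_pos := hk } ?_ ?_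
      · exact gker_of hG ⟨B, hFB⟩ hc hKp hGC hM₀ hThE hThn fun N₀ _ h1 h2 h3 =>
          hN.just N₀ h1 h2 h3
      · exact dkp_of_dkg hDK n q (r + 1) k s m X w hw E Γ p hG F c K ⟨B, hFB⟩ hc hKp hfr hGC hR W H
          π Θ M₀ hM₀ hThE v U N 𝒢 hL

/-- the local finiteness in the case of full rank -/
theorem lfG0 (hDK : DKGStmt) {q : ℕ}
    (n : ℕ) (X : Type) [TopologicalSpace X] [T2Space X] [CompactSpace X] [ConnectedSpace X]
    [ChartedSpace (Cm n) X] [IsManifold 𝓘(ℂ, Cm n) ω X]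
    (w : Chart n X → Cm n → Matrix (Fin n) (Fin n) ℂ) (hw : IsKahler w)
    (E Γ : Type) [TopologicalSpace E] [ConnectedSpace E] [Group Γ] [MulAction Γ E]
    (p : E → X) (hG : IsGalois Γ p) (F : E → Cm q)
    (c : Γ → Cm q) (K : Subgroup Γ) (hF : ∃ B, HolB p w F B)
    (hc : ∀ g y, F (g • y) = F y + c g) (hR : ∃ y, Reg (n := n) p F y)
    (hGC : GenConn (n := n) p F) (hN : NPkg Γ q c K) (hfr : FinRepIn Γ K)
    (r m : ℕ) (W H : Type) [NormedAddCommGroup W] [InnerProductSpace ℂ W]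
    [CompleteSpace W] [NormedAddCommGroup H] [InnerProductSpace ℂ H] [CompleteSpace H]
    (π : Γ →* (W ≃ₗᵢ[ℂ] W)) (Θ : E → Chart n X → (Cm n →L[ℂ] W)) (M₀ : Set (Cm q))
    (hM₀ : IsMeagre M₀) (hThE : ThE p F K π Θ M₀)
    (hThn : ∃ y e, Reg (n := n) p F y ∧ At e (p y) ∧ ∃ ξ ∈ VS p F y e, Θ y e ξ ≠ 0)
    (hπ : ∀ g, (∀ k ∈ K, g * k = k * g) → π g = 1)
    (v : E → Chart n X → (Fin (q + (r + 1)) → Cm n) → H) (U : Γ → (H →ₗᵢ[ℂ] H))
    (N : Cm 0 →L[ℂ] Cm q) (𝒢 : Set E) (hL : LeafE (q + (r + 1)) p F m v U π Θ N 𝒢)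
    (D : LeafDat q (q + (r + 1)) 0 H) (hD : ∀ x, D.N x = N) (S : Subgroup Γ) (hS : IsSub c K N S) :
    ∃ r₀ > 0, ∀ K₀ : Set E, IsCompact K₀ → (∀ y ∈ K₀, NZ p v y) →
      {a : Γ ⧸ S | ∃ g : Γ, (g : Γ ⧸ S) = a ∧ ∃ y ∈ K₀, ∃ b ∈ ball D.b₀ r₀,
        Sh p v F D (g⁻¹ • y) b}.Finite := by
  have hKp := KPkg.of hN
  refine lf0 n q (r + 1) 0 (q + (r + 1)) m X w hw E Γ p hG F c K hF hc (to0 hN) W H π Θ hπ v U N 𝒢
    hL ?_ ?_ D hD S hS
  · exact gker_of hG hF hc hKp hGC hM₀ hThE hThn fun N₀ _ h1 h2 h3 => hN.just N₀ h1 h2 h3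
  · exact dkp_of_dkg hDK n q (r + 1) 0 (q + (r + 1)) m X w hw E Γ p hG F c K hF hc hKp hfr hGC hR W
      H π Θ M₀ hM₀ hThE v U N 𝒢 hL

/-- **CORE** for special Kähler manifolds, representations of `Γ` -/
theorem coreTGK_sp (hNul : NulGStmt) (hDK : DKGStmt) (hLim : ∀ q, LimNT q) (hSp : SpK) :
    H213.G.CoreTGK H174.fspC := by
  intro n X _ _ _ _ _ _ hDX w hw E Γ _ _ _ _ p hG q F c K hF hc hR hGC hN hfr hKz
  have hfr' : FinRepIn Γ K := hfr
  refine leafOut_spK hSp n X (special_of hDX) w hw E Γ p hG F c K hF hc hN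
    (leafOutG hNul hDK (hLim q) H812.NSF.ns2 n X w hw E Γ p hG F c K hF hc hR hGC hN hfr' hKz) ?_
  intro r m W H _ _ _ _ _ _ π Θ M₀ hM₀ hThE hThn hπ v U N 𝒢 hL D hD S hS
  exact lfG0 hDK n X w hw E Γ p hG F c K hF hc hR hGC hN hfr' r m W H π Θ M₀ hM₀ hThE hThn hπ v U N
    𝒢 hL D hD S hS

end Vale.Agent.P284.H478.G
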