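import Vale.Agent.P284.H478.G.Core
import Vale.Agent.P284.H837.Fin1
import Vale.Agent.P284.H812.NSF18
import Vale.Agent.P284.H402.T.LimAtT
import Vale.Agent.P284.H213.K.Fin

/-!
# P284 (helper478), target G: T3 for the quotients `Q` of the fundamental group, with the representations
of `Q` (not of the kernel), for special projective manifolds, from G1 and G2
-/

open scoped Manifold ContDiff Topology
open Filter Set Metric

noncomputable section

set_option linter.unusedSectionVars false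

namespace Vale.Agent.P284.H478.G

open Vale.Agent.P272.K Vale.Agent.P284.H248 Vale.Agent.P284.H894 Vale.Agent.P284.H894.G
  Vale.Agent.P284.H894.V
  Vale.Agent.P284.H894.W Vale.Agent.P284.H573 Vale.Agent.P284.H213.Grp Vale.Agent.P284.H213.Q
  Vale.Agent.P284.H619 Vale.Agent.P284.H378 Vale.Agent.P284.H998 Vale.Agent.P284.H501.Core
  Vale.Agent.P284.H119.Kaz Vale.Agent.P284.H837 Vale.Agent.P284.H501.T Vale.Agent.P284.H988.N
  Vale.Agent.P284.H213.K Vale.Agent.P284.H395 Vale.Agent.P284.H625 Vale.Agent.P284.H174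

/-- the limit, all `q`, unconditional -/
theorem limNT (q : ℕ) : LimNT q :=
  limNT_all (fun n X _ _ _ _ _ _ w hw E Γ _ _ _ _ p hG hK =>
    H15.T.limK n X w hw E Γ p hG hK) (fun _ hq => H402.T.limAtT hq) q

/-- **CORE** for special projective manifolds, representations of `Γ` -/
theorem coreTG_pj (hNul : NulGStmt) (hDK : DKGStmt) : H213.G.CoreTGK (pjC fspC) := by
  intro n X _ _ _ _ _ _ hD w hw E Γ _ _ _ _ p hG q F c K hF hc hR hGC hN hfr hKz
  obtain ⟨⟨ι, hι, ⟨J⟩⟩, hDX⟩ := hD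
  have hfr' : FinRepIn Γ K := hfr
  obtain ⟨W, _, _, _, π, Θ, M₀, r, m, H, _, _, _, v, U, N, 𝒢, hM₀, hThE, hThn, hπ, ⟨y, hy⟩, hL⟩ :=
    leafOutG hNul hDK (limNT q) H812.NSF.ns2 n X w hw E Γ p hG F c K hF hc hR hGC hN hfr' hKz
  obtain ⟨B, hFB⟩ := hF
  refine spStmt n X ι J (special_of hDX) E Γ p hG q F c (fun y e he => ?_) hc H (q + (r + 1)) m
    (by omega) hL.m_pos v hL.form (fun g => ⟨U g, fun y e he ξ => hL.equi g y e he ξ⟩)
    (nff_of_leaf hL hy) ?_
  · obtain ⟨f, h1, h2⟩ := H221.holB_an hFB y he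
    exact ⟨f, h2, h1⟩
  · refine lfin_of hG.cov hL.form hc hN N fun D hD S hS => ?_
    exact lfG0 hDK n X w hw E Γ p hG F c K ⟨B, hFB⟩ hc hR hGC hN hfr' r m W H π Θ M₀ hM₀ hThE hThn
      hπ v U N 𝒢 hL D hD S hS

/-- **T3G**, special projective manifolds -/
theorem mainG_pj (hNul : NulGStmt) (hDK : DKGStmt) : MainPiK (pjC fspC) H213.G.PNG :=
  mainPiK_of (H213.G.mainSCNGK_of (etSt_pj etSt_fsp) (albUK_pj albSp) (mfK_pj mfSp)
    (coreTG_pj hNul hDK))

/-- **T3G**, special compact Kähler manifolds -/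
theorem mainG_K (hNul : NulGStmt) (hDK : DKGStmt) (hSp : SpK) (hEx : ExK) (hT5 : T5K) :
    MainPiK fspC H213.G.PNG :=
  mainPiK_of (H213.G.mainSCNGK_of etSt_fsp (albUK_sp hSp) (mfK_spU hSp hEx hT5)
    (coreTGK_sp hNul hDK limNT hSp))

end Vale.Agent.P284.H478.G
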