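import Vale.Agent.P284.H478.G.Comp
import Vale.Agent.P284.H378.LF

/-!
# P284 (helper478), target G, module G3: local finiteness, with the representation hypothesis on `Γ`
-/

open scoped Manifold ContDiff Topology InnerProductSpace ComplexConjugate
open Filter Set Metric

noncomputable section

set_option linter.unusedSectionVars false

namespace Vale.Agent.P284.H478.G

open Vale.Agent.P272.K Vale.Agent.P284.H894 Vale.Agent.P284.H894.G Vale.Agent.P284.H894.V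
  Vale.Agent.P284.H894.W Vale.Agent.P284.H573 Vale.Agent.P284.H213.Grp Vale.Agent.P284.H395
  Vale.Agent.P284.H619 Vale.Agent.P284.H625 Vale.Agent.P284.H378

/-- Generically, the elements of `K` which act trivially on `Θ` along a fibre are trivial. -/
def GK {n q : ℕ} {X E Γ W : Type} [TopologicalSpace X] [ChartedSpace (Cm n) X]
    [TopologicalSpace E] [Group Γ] [NormedAddCommGroup W]
    [InnerProductSpace ℂ W] (p : E → X) (F : E → Cm q) (K : Subgroup Γ)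
    (π : Γ →* (W ≃ₗᵢ[ℂ] W)) (Θ : E → Chart n X → (Cm n →L[ℂ] W)) : Prop :=
  ∃ M : Set (Cm q), IsMeagre M ∧ ∀ t ∉ M, ∀ g ∈ K, (∀ y e, F y = t → At e (p y) →
    ∀ ξ ∈ VS p F y e, π g (Θ y e ξ) = Θ y e ξ) → g = 1

/-- **LF** with the representation hypothesis on `Γ`. -/
def LFStmtG : Prop :=
  ∀ (n q r k s m : ℕ) (X : Type) [TopologicalSpace X] [T2Space X] [CompactSpace X]
    [ConnectedSpace X] [ChartedSpace (Cm n) X] [IsManifold 𝓘(ℂ, Cm n) ω X]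
    (w : Chart n X → Cm n → Matrix (Fin n) (Fin n) ℂ), IsKahler w → ∀ (E Γ : Type)
    [TopologicalSpace E] [ConnectedSpace E] [Group Γ] [MulAction Γ E] (p : E → X), IsGalois Γ p →
    ∀ (F : E → Cm q) (c : Γ → Cm q) (K : Subgroup Γ), (∃ B, HolB p w F B) →
      (∀ g y, F (g • y) = F y + c g) → KPkg Γ q c K → FinRepIn Γ K →
      (∀ g, (∀ k ∈ K, g * k = k * g) → ∀ h, g * h = h * g) → GenConn (n := n) p F →
      (∃ y, Reg (n := n) p F y) →
    ∀ (W H : Type) [NormedAddCommGroup W] [InnerProductSpace ℂ W] [CompleteSpace W]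
      [NormedAddCommGroup H] [InnerProductSpace ℂ H] [CompleteSpace H]
      (π : Γ →* (W ≃ₗᵢ[ℂ] W)) (Θ : E → Chart n X → (Cm n →L[ℂ] W)) (M₀ : Set (Cm q)),
      IsMeagre M₀ → ThE p F K π Θ M₀ → GK p F K π Θ →
      (∀ g, (∀ k ∈ K, g * k = k * g) → π g = 1) →
    ∀ (v : E → Chart n X → (Fin (q + r) → Cm n) → H) (U : Γ → (H →ₗᵢ[ℂ] H))
      (N : Cm k →L[ℂ] Cm q) (𝒢 : Set E), LeafE s p F m v U π Θ N 𝒢 →
    ∀ (D : LeafDat q s k H), (∀ x, D.N x = N) → ∀ S : Subgroup Γ, IsSub c K N S →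
    ∃ r₀ > 0, ∀ K₀ : Set E, IsCompact K₀ → (∀ y ∈ K₀, NZ p v y) →
      {a : Γ ⧸ S | ∃ g : Γ, (g : Γ ⧸ S) = a ∧ ∃ y ∈ K₀, ∃ b ∈ ball D.b₀ r₀,
        Sh p v F D (g⁻¹ • y) b}.Finite

theorem lfG_of (hNI : NIStmt) (hDK : DKGStmt) : LFStmtG := by
  intro n q r k s m X _ _ _ _ _ _ w hw E Γ _ _ _ _ p hp F c K hF hFe hK hfr hcentr hG hreg W H _ _
    _ _ _ _ π Θ M₀ hM₀ hTh hGK hcen v U N 𝒢 hL D hDN S hS
  obtain ⟨r₀, hr₀, hni⟩ := hNI n q r k s m X E Γ p hp w F c hF hFe W H π Θ v U N 𝒢 hL D hDN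
  refine ⟨r₀, hr₀, fun K₀ hK₀ hNZ => ?_⟩
  by_contra hinf
  have hinf' := Set.Infinite.natEmbedding _ hinf
  have : FirstCountableTopology E := firstCountable_E (n := n) hp.cov
  choose g hg y hy b hb hSh using fun i => (hinf' i).2
  obtain ⟨y₀, hy₀, θ, hθ, hyθ⟩ := hK₀.tendsto_subseq hy
  obtain ⟨σ, hσ, hmain⟩ := hni (g ∘ θ) (y ∘ θ) y₀ (b ∘ θ) hyθ (hNZ _ hy₀) (fun i => hb _)
    (fun i => hSh _)
  set h : ℕ → ℕ → Γ := fun i j => g (θ (σ i)) * (g (θ (σ j)))⁻¹ with hh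
  obtain ⟨Mk, hMk, hker⟩ := hGK
  obtain ⟨z₁, hz₁⟩ := hL.good.nonempty hp.cov
  obtain ⟨e₁, b₁, F₁, β₁, γ₁, τ₁, hL₁⟩ := hL.chart z₁ hz₁
  have himg : F '' 𝒢 ∈ 𝓝 (F z₁) := by
    rw [← hL₁.map_nhds hp.cov]
    exact image_mem_map (hL.good.isOpen.mem_nhds hz₁)
  have hpg : ∀ (g : Γ) y, p (g • y) = p y := fun g y => ((hp.orb y (g • y)).2 ⟨g, rfl⟩).symm
  have hcadd := hK.lat.add
  have hc1 : c 1 = 0 := by
    have := hcadd 1 1
    rw [mul_one] at this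
    simpa using this
  have hcinv : ∀ g, c g⁻¹ = - c g := by
    intro g
    have := hcadd g g⁻¹
    rw [mul_inv_cancel, hc1] at this
    exact (neg_eq_of_add_eq_zero_right this.symm).symm
  -- eventually the elements commute with every element of `K`
  have hcomm : ∀ κ ∈ K, ∃ j₀, ∀ i ≥ j₀, ∀ j ≥ j₀, h i j * κ = κ * h i j := by
    intro κ hκ
    by_contra hcon
    push Not at hcon
    choose i hi j hj hne' using hcon
    set hs : ℕ → Γ := fun l => h (i l) (j l) with hhs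
    have hcκ : c κ = 0 := hK.sub κ hκ
    have hev : ∀ (P : ℕ → ℕ → Prop), (∃ j₀, ∀ i ≥ j₀, ∀ j ≥ j₀, P i j) →
        ∀ᶠ l in atTop, P (i l) (j l) := by
      rintro P ⟨j₀, hj₀⟩
      filter_upwards [eventually_ge_atTop j₀] with l hl
      exact hj₀ _ (hl.trans (hi l)) _ (hl.trans (hj l))
    have hN1 : NearId p F m v U π Θ c N s 𝒢 hs := by
      intro z hz e' b' F' β' γ' τ' hL'
      obtain ⟨ρ₁, hρ₁, h1⟩ := hmain z hz e' b' F' β' γ' τ' hL' 1 hc1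
      refine ⟨ρ₁, hρ₁, fun ε hε => ?_⟩
      have := hev _ (h1 ε hε)
      filter_upwards [this] with l hl
      simpa using hl
    have hN2 : NearId p F m v U π Θ c N s 𝒢 (fun l => κ * hs l * κ⁻¹) := by
      intro z hz e' b' F' β' γ' τ' hL'
      obtain ⟨ρ₁, hρ₁, h1⟩ := hmain z hz e' b' F' β' γ' τ' hL' κ hcκ
      exact ⟨ρ₁, hρ₁, fun ε hε => hev _ (h1 ε hε)⟩
    have hcc : ∀ l, c (κ * hs l * κ⁻¹) = c (hs l) := by
      intro l
      rw [hcadd, hcadd, hcinv, hcκ]; simp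
    have hN3 := NearId.inv_mul hp.cov (fun g y e he ξ => hL.equi g y e he ξ) hpg hcadd hN1 hN2 hcc
    obtain ⟨Md, hMd, hDd⟩ := hDK n q r k s m X w hw E Γ p hp F c K hF hFe hK hfr hG hreg W H π Θ M₀
      hM₀ hTh v U N 𝒢 hL _ (fun l => by rw [hcadd, hcinv, hcc, neg_add_cancel]) hN3
    obtain ⟨t₀, ht₀, ht₀'⟩ := (dense_of_mem_residual (hMk.union hMd)).inter_nhds_nonempty himg
    obtain ⟨z₀, hz₀, hFz₀⟩ := ht₀'
    have htk : t₀ ∉ Mk := fun h' => ht₀ (Or.inl h')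
    have htd : t₀ ∉ Md := fun h' => ht₀ (Or.inr h')
    have hDK' := hDd t₀ htd ⟨z₀, hFz₀⟩
    obtain ⟨l, hl⟩ := hDK'.exists
    have h1 : (hs l)⁻¹ * (κ * hs l * κ⁻¹) ∈ K := by
      have h2 : (hs l)⁻¹ * κ * ((hs l)⁻¹)⁻¹ ∈ K := hK.normal.conj_mem κ hκ _
      rw [inv_inv] at h2
      have h3 := K.mul_mem h2 (K.inv_mem hκ)
      have h4 : (hs l)⁻¹ * (κ * hs l * κ⁻¹) = (hs l)⁻¹ * κ * hs l * κ⁻¹ := by group
      rwa [h4]
    have h2 := hker t₀ htk _ h1 hl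
    apply hne' l
    have h3 : κ * hs l * κ⁻¹ = hs l := by
      have := congrArg (fun x => hs l * x) h2
      simpa using this
    have h4 : κ * hs l = hs l * κ := by
      rw [← h3]
      conv_lhs => rw [h3]
      group
    exact h4.symm
  -- finitely many generators
  obtain ⟨j₀, hj₀⟩ : ∃ j₀, ∀ i ≥ j₀, ∀ j ≥ j₀, ∀ κ ∈ K, h i j * κ = κ * h i j := by
    obtain ⟨SK, hSK⟩ := hK.fg.out
    have h1 : ∀ κ : K, ∃ j₀, ∀ i ≥ j₀, ∀ j ≥ j₀, h i j * κ = κ * h i j := fun κ =>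
      hcomm κ κ.2
    choose J hJ using h1
    refine ⟨SK.sup J, fun i hi j hj => ?_⟩
    have h2 : ∀ κ : K, h i j * κ = κ * h i j := by
      intro κ
      have hκ : κ ∈ Subgroup.closure (SK : Set K) := by rw [hSK]; exact Subgroup.mem_top _
      refine Subgroup.closure_induction (p := fun (κ : K) _ => h i j * κ = κ * h i j)
        ?_ ?_ ?_ ?_ hκ
      · intro x hx
        exact hJ x i ((Finset.le_sup hx).trans hi) j ((Finset.le_sup hx).trans hj)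
      · simp
      · intro x y _ _ h3 h4
        rw [Subgroup.coe_mul, ← mul_assoc, h3, mul_assoc, h4, mul_assoc]
      · intro x _ h3
        rw [Subgroup.coe_inv]
        have : (x : Γ)⁻¹ * (h i j * x) * (x : Γ)⁻¹ = (x : Γ)⁻¹ * (x * h i j) * (x : Γ)⁻¹ := by
          rw [h3]
        simpa [mul_assoc] using this.symm
    intro κ hκ
    exact h2 ⟨κ, hκ⟩
  -- a pair of indices
  obtain ⟨e', b', F', β', γ', τ', hL'⟩ := hL.chart z₁ hz₁
  set x₀ := b' (e' (p z₁)) with hx₀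
  obtain ⟨C, -⟩ := H212.exists_pc hL'.γan hL'.imm one_pos
  obtain ⟨ρ, hρ, h1⟩ := hmain z₁ hz₁ e' b' F' β' γ' τ' hL' 1 hc1
  obtain ⟨j₁, hj₁⟩ := h1 C.r₁ C.r₁_pos
  set j := max j₀ j₁ with hj
  set i := j + 1 with hi
  have hij0 : j₀ ≤ i := by have := le_max_left j₀ j₁; omega
  have hij1 : j₁ ≤ i := by have := le_max_right j₀ j₁; omega
  have hcom := hj₀ i hij0 j (le_max_left _ _)
  obtain ⟨φ, hφ, hφd⟩ := hj₁ i hij1 j (le_max_right _ _)
  have hone : (1 : Γ) * ((g ∘ θ) (σ i) * ((g ∘ θ) (σ j))⁻¹) * 1⁻¹ = h i j := by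
    simp [hh]
  rw [hone] at hφ
  have hπ : π (h i j) = 1 := hcen _ hcom
  -- `U h` fixes `γ b₀`
  have hUγ : U (h i j) (γ' (β' x₀)) = γ' (β' x₀) := by
    choose ξ hξ using fun l : Fin (q + r) => hL'.bsurj (Pi.single l 1)
    have h2 : (Matrix.of fun i j => fderiv ℂ b' (e' (p z₁)) (ξ j) i) = 1 := by
      ext i' j'
      rw [Matrix.of_apply, hξ, Matrix.one_apply, Pi.single_apply]
    have h3 := hL'.v_eq.self_of_nhds ξ
    rw [h2, Matrix.det_one, one_pow, one_smul] at h3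
    have h4 := hL.equi (h i j) z₁ e' hL'.mem ξ
    rw [hL.triv (h i j) hπ z₁ e' hL'.mem ξ, h3] at h4
    exact h4.symm
  have hx₀b : β' x₀ ∈ ball (β' x₀) ρ := mem_ball_self hρ
  obtain ⟨⟨a, ha⟩, hτ⟩ := hφ.2 _ hx₀b
  rw [hUγ] at ha
  have hne0 : γ' (β' x₀) ≠ 0 := hL'.imm.1
  have ha0 : a ≠ 0 := by
    rintro rfl
    rw [zero_smul] at ha
    exact hne0 ha
  have hφb : φ (β' x₀) ∈ ball (β' x₀) C.r₁ := by
    rw [mem_ball, dist_eq_norm]
    exact hφd _ hx₀b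
  have heq : β' x₀ = φ (β' x₀) := C.inj (mem_ball_self C.r₁_pos) hφb ha0 ha
  rw [← heq, sub_self, zero_sub] at hτ
  have hcS : c (h i j) ∈ LinearMap.range (N : Cm k →ₗ[ℂ] Cm q) := by
    have := Submodule.neg_mem _ hτ
    rwa [neg_neg] at this
  have hhS : h i j ∈ S := (hS _).2 ⟨hcom, hcS⟩
  have hcentral := hcentr _ hcom
  have hcoset : (g (θ (σ j)) : Γ ⧸ S) = g (θ (σ i)) := by
    rw [QuotientGroup.eq]
    have h2 : g (θ (σ i)) = h i j * g (θ (σ j)) := by simp [hh]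
    rw [h2, hcentral, inv_mul_cancel_left]
    exact hhS
  rw [hg, hg] at hcoset
  have h2 := hinf'.injective (Subtype.ext hcoset)
  have h3 := hσ.injective (hθ.injective h2)
  omega

end Vale.Agent.P284.H478.G
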