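import Vale.Agent.P284.H478.G.Core
import Vale.Agent.P284.H988.N.Leaf0

/-!
# P284 (helper478), target G for program N: from the limit form to the leaf data of full rank, for
`NPkg0`, with the representations of the group `Γ`
-/

open scoped Manifold ContDiff Topology
open Filter Set Metric

noncomputable section

set_option linter.unusedSectionVars false

namespace Vale.Agent.P284.H478.G

open Vale.Agent.P272.K Vale.Agent.P284.H894 Vale.Agent.P284.H894.G Vale.Agent.P284.H894.V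
  Vale.Agent.P284.H894.W Vale.Agent.P284.H573 Vale.Agent.P284.H213.Grp Vale.Agent.P284.H213.Q
  Vale.Agent.P284.H619 Vale.Agent.P284.H378 Vale.Agent.P284.H998 Vale.Agent.P284.H501.Core
  Vale.Agent.P284.H119.Kaz Vale.Agent.P284.H837 Vale.Agent.P284.H501.T Vale.Agent.P284.H988.N
  Vale.Agent.P284.H395 Vale.Agent.P284.H625 Vale.Agent.P284.H885.Ker

section
variable {n q : ℕ} {X : Type} [TopologicalSpace X] [T2Space X] [CompactSpace X] [ConnectedSpace X]
  [ChartedSpace (Cm n) X] [IsManifold 𝓘(ℂ, Cm n) ω X]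
  {w : Chart n X → Cm n → Matrix (Fin n) (Fin n) ℂ}
  {E Γ : Type} [TopologicalSpace E] [ConnectedSpace E] [Group Γ] [MulAction Γ E]
  {p : E → X} {F : E → Cm q} {c : Γ → Cm q} {K : Subgroup Γ}
  {W : Type} [NormedAddCommGroup W] [InnerProductSpace ℂ W] [CompleteSpace W]
  {π : Γ →* (W ≃ₗᵢ[ℂ] W)} {S : E → Chart n X → Cm n [⋀^Fin (q + 1)]→L[ℂ] W}
  {Θ : E → Chart n X → (Cm n →L[ℂ] W)} {M₀ : Set (Cm q)}

/-- **NUL**, finite images of the representations of `Γ` -/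
theorem nulP_g (hNul : NulGStmt) (hw : IsKahler w) (hG : IsGalois Γ p) (hF : ∃ B, HolB p w F B)
    (hc : ∀ g y, F (g • y) = F y + c g) (hR : ∃ y, Reg (n := n) p F y)
    (hGC : GenConn (n := n) p F) (hN : KPkg Γ q c K) (hfr : FinRepIn Γ K) (hM₀ : IsMeagre M₀)
    (hTh : ThE p F K π Θ M₀) : NulP p F Θ :=
  fun O hO hOne hOa => hNul n q X w hw E Γ p hG F c K hF hc hN hfr hGC hR W π Θ M₀ hM₀ hTh O hO
    hOne hOa

/-- rigidity, finite images of the representations of `Γ` -/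
theorem dkAll_g (hDK : DKGStmt) (hw : IsKahler w) (hG : IsGalois Γ p) (hF : ∃ B, HolB p w F B)
    (hc : ∀ g y, F (g • y) = F y + c g) (hR : ∃ y, Reg (n := n) p F y)
    (hGC : GenConn (n := n) p F) (hN : KPkg Γ q c K) (hfr : FinRepIn Γ K) (hM₀ : IsMeagre M₀)
    (hTh : ThE p F K π Θ M₀) : DKAll p F c K π Θ := by
  intro r s k m H _ _ _ v U N 𝒢 hL
  exact dkp_of_dkg hDK n q r k s m X w hw E Γ p hG F c K hF hc hN hfr hGC hR W H π Θ M₀ hM₀ hTh v U
    N 𝒢 hL

/-- **One-stop theorem**, finite images of the representations of `Γ` -/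
theorem leafX_g (hNul : NulGStmt) (hDK : DKGStmt) (hNS : NS2Stmt) (hw : IsKahler w)
    (hG : IsGalois Γ p) (hF : ∃ B, HolB p w F B)
    (hc : ∀ g y, F (g • y) = F y + c g) (hR : ∃ y, Reg (n := n) p F y)
    (hGC : GenConn (n := n) p F) (hN : NPkg0 Γ q c K) (hfr : FinRepIn Γ K) (hS : SRel p F π S Θ)
    (hπ : ∀ g, (∀ k ∈ K, g * k = k * g) → π g = 1) (hM₀ : IsMeagre M₀)
    (hpot : ∀ t ∉ M₀, ∃ u : E → W, VPot p F t W Θ u ∧ VEqui p F t K π Θ u)
    (hj : JustK p F K π Θ) :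
    LeafX q p F π Θ ∧ GKer p F K π Θ ∧ DKAll p F c K π Θ := by
  have hF' := hF
  obtain ⟨B, hFB⟩ := hF'
  have h0 := thE_of hG hFB hc hS hpot
  have h1 := gker_of_srel hG hF hc hR hGC hN.kpkg hS hM₀ hpot hj
  have h2 := dkAll_g hDK hw hG hF hc hR hGC hN.kpkg hfr hM₀ h0
  exact ⟨leafX_of hNS hw hG hF hc hR hN hS hπ
    (nulP_g hNul hw hG hF hc hR hGC hN.kpkg hfr hM₀ h0) h2 h1, h1, h2⟩

end

end Vale.Agent.P284.H478.G
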